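import Vale.Agent.P030.CkLink

/-!
# P030: data of the energy certificate
-/

namespace Vale.Agent.P030.Ck

def DD : List Bl := [
  ⟨279172936517, 0, 0, 149465, .ofNat 22743, .ofNat 868843, .ofNat 901908, .negSucc 10321⟩,
  ⟨279173142343, 0, 0, 344517, .ofNat 926085, .negSucc 898709, .ofNat 153208, .negSucc 125832⟩,
  ⟨279173616771, 0, 0, 794111, .ofNat 322078, .ofNat 341490, .ofNat 798432, .negSucc 134862⟩,
  ⟨279174710327, 0, 0, 1830425, .ofNat 832215, .negSucc 323974, .ofNat 695118, .negSucc 186879⟩,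
  ⟨279177230974, 0, 0, 4219129, .ofNat 817076, .negSucc 19449, .ofNat 1025269, .negSucc 227637⟩,
  ⟨279183041067, 0, 0, 9725093, .ofNat 1155331, .negSucc 194588, .ofNat 1273262, .negSucc 312530⟩,
  ⟨279196433330, 0, 0, 22416339, .ofNat 1336493, .negSucc 122346, .ofNat 1607743, .negSucc 393575⟩,
  ⟨279227302497, 0, 0, 51669661, .ofNat 1729512, .negSucc 176544, .ofNat 2090386, .negSucc 537470⟩,
  ⟨279298455926, 0, 0, 119098569, .ofNat 2025991, .negSucc 107804, .ofNat 2609958, .negSucc 691697⟩,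
  ⟨279462464580, 0, 0, 274522201, .ofNat 2594738, .negSucc 164492, .ofNat 3315813, .negSucc 885952⟩,
  ⟨279840504528, 0, 0, 632773674, .ofNat 2999624, .ofNat 48192, .ofNat 3921310, .negSucc 873372⟩,
  ⟨280586623393, 0, 0, 1157911601, .ofNat 2696796, .negSucc 504989, .ofNat 2834245, .negSucc 647320⟩,
  ⟨281480974174, 0, 0, 988530272, .ofNat 804843, .ofNat 14785, .ofNat 914364, .negSucc 89694⟩,
  ⟨282114621551, 0, 0, 532223434, .ofNat 432917, .negSucc 346435, .ofNat 120071, .negSucc 39560⟩,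
  ⟨282468328375, 0, 0, 316672943, .ofNat 124665, .ofNat 93786, .ofNat 234753, .negSucc 4964⟩,
  ⟨282678783935, 0, 0, 188420401, .ofNat 45910, .ofNat 41883, .ofNat 100564, .negSucc 4828⟩,
  ⟨282869721636, 0, 0, 269830081, .negSucc 367215, .ofNat 133023, .negSucc 232907, .ofNat 489⟩,
  ⟨283241300143, 0, 0, 621958337, .ofNat 34737, .ofNat 208665, .ofNat 292738, .negSucc 48643⟩,
  ⟨284097788603, 0, 0, 1433613967, .negSucc 386018, .ofNat 874034, .ofNat 550659, .negSucc 63230⟩,
  ⟨285658197118, 0, 0, 2311366468, .negSucc 2195, .ofNat 604131, .ofNat 794109, .negSucc 191987⟩,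
  ⟨287773290050, 0, 0, 2764856569, .negSucc 102439, .ofNat 448574, .ofNat 328786, .ofNat 17129⟩,
  ⟨290303364215, 0, 0, 3307321428, .ofNat 717, .ofNat 218489, .ofNat 332747, .negSucc 113497⟩,
  ⟨293061482604, 0, 0, 3312162706, .negSucc 26510, .ofNat 142987, .ofNat 100317, .ofNat 16095⟩,
  ⟨295486126479, 0, 0, 2506982594, .negSucc 15443, .negSucc 47755, .ofNat 11278, .negSucc 74497⟩,
  ⟨297157492507, 0, 0, 1504295874, .ofNat 35212, .ofNat 100484, .ofNat 20812, .ofNat 114950⟩,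
  ⟨299229033283, 0, 0, 3467401989, .negSucc 63784, .negSucc 425868, .negSucc 303267, .negSucc 186504⟩,
  ⟨279172811963, 0, 0, 149465, .negSucc 789270, .ofNat 1390, .negSucc 608188, .negSucc 179691⟩,
  ⟨279172606137, 0, 0, 344517, .negSucc 64922, .ofNat 259388, .negSucc 284375, .ofNat 478840⟩,
  ⟨279172131709, 0, 0, 794111, .negSucc 569263, .ofNat 207392, .negSucc 666270, .ofNat 304399⟩,
  ⟨279171038153, 0, 0, 1830425, .negSucc 476344, .ofNat 361081, .negSucc 646088, .ofNat 530824⟩,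
  ⟨279168517506, 0, 0, 4219129, .negSucc 693388, .ofNat 379802, .negSucc 971304, .ofNat 657717⟩,
  ⟨279162707413, 0, 0, 9725093, .negSucc 760077, .ofNat 461363, .negSucc 1156167, .ofNat 857453⟩,
  ⟨279149315150, 0, 0, 22416339, .negSucc 949758, .ofNat 517814, .negSucc 1586926, .ofNat 1154980⟩,
  ⟨279118445983, 0, 0, 51669661, .negSucc 1037807, .ofNat 544338, .negSucc 1966945, .ofNat 1473474⟩,
  ⟨279047292554, 0, 0, 119098569, .negSucc 1179917, .ofNat 536568, .negSucc 2673988, .ofNat 2030603⟩,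
  ⟨278883283900, 0, 0, 274522201, .negSucc 1128416, .ofNat 413252, .negSucc 3449571, .ofNat 2734279⟩,
  ⟨278529320321, 0, 0, 574990388, .negSucc 731941, .negSucc 22168, .negSucc 5171398, .ofNat 4416402⟩,
  ⟨278136381970, 0, 0, 368061654, .ofNat 12860, .negSucc 87740, .negSucc 680015, .ofNat 604942⟩,
  ⟨277891774329, 0, 0, 218996684, .negSucc 55678, .ofNat 42318, .negSucc 236821, .ofNat 223404⟩,
  ⟨277712522148, 0, 0, 211208552, .ofNat 23454, .negSucc 41678, .negSucc 155937, .ofNat 137670⟩,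
  ⟨277421670370, 0, 0, 486835713, .negSucc 85124, .negSucc 41106, .negSucc 1421311, .ofNat 1294805⟩,
  ⟨276864319272, 0, 0, 850806923, .negSucc 201142, .ofNat 79505, .negSucc 2982573, .ofNat 2860616⟩,
  ⟨276125886390, 0, 0, 921431993, .negSucc 387090, .ofNat 102496, .negSucc 4571512, .ofNat 4286722⟩,
  ⟨275530938833, 0, 0, 506442144, .negSucc 54089, .ofNat 96091, .negSucc 2606085, .ofNat 2648072⟩,
  ⟨275213357405, 0, 0, 255753283, .negSucc 45099, .negSucc 4222, .negSucc 1657786, .ofNat 1608446⟩,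
  ⟨275052978783, 0, 0, 129155408, .ofNat 1797, .ofNat 13700, .negSucc 1087120, .ofNat 1102621⟩,
  ⟨274970486302, 0, 0, 68826549, .negSucc 6237, .negSucc 3503, .negSucc 662486, .ofNat 652742⟩,
  ⟨274924745325, 0, 0, 40951796, .ofNat 1047, .ofNat 2300, .negSucc 755394, .ofNat 758742⟩,
  ⟨274897529443, 0, 0, 24366319, .ofNat 299, .negSucc 133, .ofNat 128664, .negSucc 128498⟩,
  ⟨274867399547, 0, 0, 47945431, .negSucc 3701, .negSucc 678, .ofNat 580237, .negSucc 584619⟩,
  ⟨274801374693, 0, 0, 110514219, .ofNat 1371, .ofNat 6820, .ofNat 335817, .negSucc 327624⟩,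
  ⟨274649187404, 0, 0, 254735275, .negSucc 43544, .ofNat 5738, .ofNat 727049, .negSucc 764871⟩,
  ⟨274298395703, 0, 0, 587164809, .negSucc 86192, .ofNat 111874, .ofNat 796377, .negSucc 770711⟩,
  ⟨273682767416, 0, 0, 890343079, .negSucc 327640, .ofNat 82969, .ofNat 291711, .negSucc 536464⟩,
  ⟨272995228635, 0, 0, 759749995, .negSucc 153861, .ofNat 118529, .ofNat 91258, .negSucc 126603⟩,
  ⟨272377325232, 0, 0, 723218172, .ofNat 372836, .negSucc 411092, .ofNat 12687, .negSucc 50941⟩,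
  ⟨271720507173, 0, 0, 853145170, .negSucc 291087, .negSucc 223848, .negSucc 331078, .negSucc 183923⟩,
  ⟨271171226429, 0, 0, 465128616, .ofNat 127591, .negSucc 436305, .negSucc 322804, .ofNat 14109⟩,
  ⟨270879552026, 0, 0, 234889951, .negSucc 44472, .negSucc 328035, .negSucc 348836, .negSucc 23684⟩,
  ⟨270732256453, 0, 0, 118619425, .ofNat 21896, .negSucc 248000, .negSucc 232768, .ofNat 6670⟩,
  ⟨270657872188, 0, 0, 59902810, .negSucc 10297, .negSucc 223867, .negSucc 229519, .negSucc 4647⟩,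
  ⟨270620308134, 0, 0, 30250919, .ofNat 5176, .negSucc 90683, .negSucc 87417, .ofNat 1912⟩,
  ⟨270601338287, 0, 0, 15276714, .negSucc 2520, .negSucc 213539, .negSucc 215009, .negSucc 1051⟩,
  ⟨270591758514, 0, 0, 7714741, .ofNat 1256, .ofNat 131655, .ofNat 132418, .ofNat 494⟩,
  ⟨270586786380, 0, 0, 4218383, .negSucc 643, .negSucc 452017, .negSucc 452393, .negSucc 267⟩,
  ⟨270583982913, 0, 0, 2509938, .ofNat 304, .ofNat 305216, .ofNat 305389, .ofNat 131⟩,
  ⟨270582312676, 0, 0, 1498630, .negSucc 101, .ofNat 196808, .ofNat 196770, .negSucc 63⟩,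
  ⟨270580248937, 0, 0, 3454343, .ofNat 51, .ofNat 54582, .ofNat 54547, .ofNat 87⟩,
  ⟨270575492020, 0, 0, 7962260, .negSucc 72, .ofNat 243946, .ofNat 244079, .negSucc 204⟩,
  ⟨270564527324, 0, 0, 18353009, .ofNat 153, .ofNat 339057, .ofNat 338857, .ofNat 353⟩,
  ⟨270539253700, 0, 0, 42303687, .negSucc 205, .ofNat 528952, .ofNat 529869, .negSucc 1122⟩,
  ⟨270480997998, 0, 0, 97509998, .ofNat 898, .ofNat 787945, .ofNat 788238, .ofNat 605⟩,
  ⟨270346718605, 0, 0, 224760545, .ofNat 167, .ofNat 1219931, .ofNat 1229667, .negSucc 9572⟩,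
  ⟨270037204604, 0, 0, 518073057, .ofNat 7753, .ofNat 1803345, .ofNat 1826318, .negSucc 15219⟩,
  ⟨269391337466, 0, 0, 1032008074, .ofNat 398, .ofNat 1912024, .ofNat 1992435, .negSucc 80040⟩,
  ⟨268380918306, 0, 0, 1392997910, .ofNat 5930, .ofNat 1050622, .ofNat 1092144, .negSucc 35596⟩,
  ⟨267106209135, 0, 0, 1666304100, .negSucc 13364, .ofNat 730722, .ofNat 806971, .negSucc 89653⟩,
  ⟨265581402025, 0, 0, 1993232964, .ofNat 16975, .ofNat 523954, .ofNat 509573, .ofNat 31383⟩,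
  ⟨263757427760, 0, 0, 2384305272, .negSucc 41712, .ofNat 354461, .ofNat 485329, .negSucc 172672⟩,
  ⟨261575589744, 0, 0, 2852105966, .ofNat 64817, .ofNat 354557, .ofNat 202634, .ofNat 216870⟩,
  ⟨258965675109, 0, 0, 3411689157, .negSucc 103093, .ofNat 77973, .ofNat 359844, .negSucc 385181⟩,
  ⟨256435611565, 0, 0, 2660463348, .ofNat 76313, .ofNat 157904, .negSucc 39943, .ofNat 274319⟩,
  ⟨254419069640, 0, 0, 2179237274, .negSucc 55504, .negSucc 175474, .negSucc 23179, .negSucc 207917⟩,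
  ⟨252622447240, 0, 0, 2132656485, .ofNat 48369, .ofNat 190165, .ofNat 56135, .ofNat 182501⟩,
  ⟨249858936058, 0, 0, 4499770353, .negSucc 49549, .negSucc 474393, .negSucc 325452, .negSucc 198598⟩,
  ⟨282599693852, 141627140, 0, 193842213, .negSucc 204974, .ofNat 220442, .ofNat 0, .ofNat 0⟩,
  ⟨282599693852, 0, 141627140, 193842213, .negSucc 204974, .ofNat 220442, .ofNat 0, .ofNat 0⟩,
  ⟨282421477575, 407519492, 0, 191652506, .negSucc 239661, .ofNat 229200, .ofNat 0, .ofNat 0⟩,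
  ⟨282421477575, 0, 407519492, 191652506, .negSucc 239661, .ofNat 229200, .ofNat 0, .ofNat 0⟩,
  ⟨282219161381, 653829515, 0, 190964390, .negSucc 193292, .ofNat 196171, .ofNat 0, .ofNat 0⟩,
  ⟨282219161381, 0, 653829515, 190964390, .negSucc 193292, .ofNat 196171, .ofNat 0, .ofNat 0⟩,
  ⟨281994228685, 878333234, 0, 190430840, .negSucc 205901, .ofNat 208073, .ofNat 0, .ofNat 0⟩,
  ⟨281994228685, 0, 878333234, 190430840, .negSucc 205901, .ofNat 208073, .ofNat 0, .ofNat 0⟩,
  ⟨281748733719, 1078837761, 0, 189984390, .negSucc 186647, .ofNat 186494, .ofNat 0, .ofNat 0⟩,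
  ⟨281748733719, 0, 1078837761, 189984390, .negSucc 186647, .ofNat 186494, .ofNat 0, .ofNat 0⟩,
  ⟨281484723447, 1253054727, 0, 189690581, .negSucc 195324, .ofNat 194996, .ofNat 0, .ofNat 0⟩,
  ⟨281484723447, 0, 1253054727, 189690581, .negSucc 195324, .ofNat 194996, .ofNat 0, .ofNat 0⟩,
  ⟨281204408416, 1398908865, 0, 189643003, .negSucc 177974, .ofNat 178076, .ofNat 0, .ofNat 0⟩,
  ⟨281204408416, 0, 1398908865, 189643003, .negSucc 177974, .ofNat 178076, .ofNat 0, .ofNat 0⟩,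
  ⟨280909932794, 1513960059, 0, 189998458, .negSucc 186790, .ofNat 186864, .ofNat 0, .ofNat 0⟩,
  ⟨280909932794, 0, 1513960059, 189998458, .negSucc 186790, .ofNat 186864, .ofNat 0, .ofNat 0⟩,
  ⟨280603620726, 1596258722, 0, 191021633, .negSucc 168784, .ofNat 168427, .ofNat 0, .ofNat 0⟩,
  ⟨280603620726, 0, 1596258722, 191021633, .negSucc 168784, .ofNat 168427, .ofNat 0, .ofNat 0⟩,
  ⟨280287584635, 1643608721, 0, 193126255, .negSucc 170121, .ofNat 169384, .ofNat 0, .ofNat 0⟩,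
  ⟨280287584635, 0, 1643608721, 193126255, .negSucc 170121, .ofNat 169384, .ofNat 0, .ofNat 0⟩,
  ⟨279963521916, 1652716501, 0, 196981002, .negSucc 159175, .ofNat 158333, .ofNat 0, .ofNat 0⟩,
  ⟨279963521916, 0, 1652716501, 196981002, .negSucc 159175, .ofNat 158333, .ofNat 0, .ofNat 0⟩,
  ⟨279632730710, 1619923904, 0, 203842048, .negSucc 173379, .ofNat 172946, .ofNat 0, .ofNat 0⟩,
  ⟨279632730710, 0, 1619923904, 203842048, .negSucc 173379, .ofNat 172946, .ofNat 0, .ofNat 0⟩,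
  ⟨279295373598, 1538429110, 0, 216383512, .negSucc 185773, .ofNat 185554, .ofNat 0, .ofNat 0⟩,
  ⟨279295373598, 0, 1538429110, 216383512, .negSucc 185773, .ofNat 185554, .ofNat 0, .ofNat 0⟩,
  ⟨278949511030, 1395538061, 0, 241355974, .negSucc 195455, .ofNat 195482, .ofNat 0, .ofNat 0⟩,
  ⟨278949511030, 0, 1395538061, 241355974, .negSucc 195455, .ofNat 195482, .ofNat 0, .ofNat 0⟩,
  ⟨278587920631, 1162273157, 0, 307368385, .negSucc 245291, .ofNat 244777, .ofNat 0, .ofNat 0⟩,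
  ⟨278587920631, 0, 1162273157, 307368385, .negSucc 245291, .ofNat 244777, .ofNat 0, .ofNat 0⟩,
  ⟨278179963798, 730167991, 0, 356555346, .negSucc 224181, .ofNat 223741, .ofNat 0, .ofNat 0⟩,
  ⟨278179963798, 0, 730167991, 356555346, .negSucc 224181, .ofNat 223741, .ofNat 0, .ofNat 0⟩]

noncomputable def La : BL := Lab (fun b => Int.add b.w2 b.w3) DD

noncomputable def Lb : BL := Lab (fun b => Int.add b.w1 b.w3) DD

noncomputable def Lu : BL := toBL Bl.ya Bl.yb Bl.r (fun b => Int.sub b.w2 b.w1) DD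

noncomputable def Lv : BL := toBL Bl.yb Bl.ya Bl.r (fun b => Int.sub b.w2 b.w1) DD

noncomputable def Ls : BL := Lss (fun b => Int.sub b.w4 b.w3) DD

theorem hr : ∀ b ∈ DD, 0 < b.r := by decide +kernel

theorem rpa : rp La = true := by decide +kernel

theorem nsa : nsum La = 68161868 := by decide +kernel

theorem rpb : rp Lb = true := by decide +kernel

theorem nsb : nsum Lb = 83649490 := by decide +kernel

theorem rpu : rp Lu = true := by decide +kernel

theorem nsu : nsum Lu = 25161376 := by decide +kernel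

theorem rpv : rp Lv = true := by decide +kernel

theorem nsv : nsum Lv = 25161376 := by decide +kernel

theorem rps : rp Ls = true := by decide +kernel

theorem nss : nsum Ls = 48719786 := by decide +kernel

theorem taila {x : ℝ} (hx : 64 * 2 ^ 32 ≤ |x|) :
    2 ^ 32 * potJ La (x + 2 ^ 38) 0 + 2 ^ 38 * (nsum La : ℝ) ≤ (17006496998101934672 : ℕ) :=
  tail_cov La (by decide +kernel) (by decide +kernel) (by decide +kernel) hx

theorem tailb {x : ℝ} (hx : 64 * 2 ^ 32 ≤ |x|) :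
    2 ^ 32 * potJ Lb (x + 2 ^ 38) 0 + 2 ^ 38 * (nsum Lb : ℝ) ≤ (18030465653627265227 : ℕ) :=
  tail_cov Lb (by decide +kernel) (by decide +kernel) (by decide +kernel) hx

theorem ms1 : (DD.map (Bl.w1)).sum = 2097152 := by decide +kernel

theorem ms2 : (DD.map (Bl.w2)).sum = 18874368 := by decide +kernel

theorem ms3 : (DD.map (Bl.w3)).sum = 0 := by decide +kernel

theorem ms4 : (DD.map (Bl.w4)).sum = 20971520 := by decide +kernel

theorem msa : (DD.map (fun b => Int.add b.w2 b.w3)).sum = 18874368 := by decide +kernel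

theorem msb : (DD.map (fun b => Int.add b.w1 b.w3)).sum = 2097152 := by decide +kernel

theorem msu : (DD.map (fun b => Int.sub b.w2 b.w1)).sum = 16777216 := by decide +kernel

theorem mss : (DD.map (fun b => Int.sub b.w4 b.w3)).sum = 20971520 := by decide +kernel

theorem enc : enV DD DD + 141388438047314277212432958 ≤ 2 ^ 38 * enN DD DD := by decide +kernel

end Vale.Agent.P030.Ck
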