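import Mathlib.Data.Nat.Basic
import Mathlib.Data.Int.Basic

/-!
# P030: the integer checker of the energy certificate (definitions only)
-/

namespace Vale.Agent.P030.Ck

noncomputable section

/-- Weighted blobs with natural number data; the sign of the weight is the constructor. -/
inductive BL : Type
  | nil : BL
  | pos (c ya yb r w : ℕ) (t : BL) : BL
  | neg (c ya yb r w : ℕ) (t : BL) : BL

def dd (a b : ℕ) : ℕ := Nat.add (Nat.sub a b) (Nat.sub b a)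

def sm (x s : ℕ) : ℕ := Nat.lor x (Nat.shiftRight x s)

/-- An unverified guess for the binary logarithm. -/
def hint (N : ℕ) : ℕ :=
  Nat.land (Nat.shiftRight (nat_lit 165413236570708830522159302420186567576003059220384074487599866792789747301340487896852308355941844948082562949481961074071042440411642956188640867787874897920)
    (Nat.mul (nat_lit 8) (Nat.mod (sm (sm (sm (sm (sm (sm (Nat.shiftRight N (nat_lit 16)) (nat_lit 1)) (nat_lit 2))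
      (nat_lit 4)) (nat_lit 8)) (nat_lit 16)) (nat_lit 32)) (nat_lit 67)))) (nat_lit 255)

def ser2 (z z2 : ℕ) : ℕ :=
  Nat.div (Nat.mul (Nat.add (Nat.mul (Nat.add (Nat.mul (Nat.add (Nat.mul (Nat.add (Nat.mul (nat_lit 35) z2)
    (nat_lit 830103483316929822720)) z2) (nat_lit 21437789116019123198192600268201397321728)) z2)
    (nat_lit 659095682215601480202757889436804973690747321668723623854080)) z2)
    (nat_lit 36474508109754601558424860277736690973780045169676777672429138962492635836579840)) z)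
    (nat_lit 18237254054877300779212430138868345486890022584838388836214569481246317918289920)

def ser1 (z : ℕ) : ℕ := ser2 z (Nat.mul z z)

def ser (N q : ℕ) : ℕ := ser1 (Nat.div (Nat.shiftLeft (Nat.sub N q) (nat_lit 32)) (Nat.add N q))

def lgL2 (N k q : ℕ) : ℕ :=
  Bool.rec (nat_lit 0) (Nat.add (Nat.mul k (nat_lit 2977044470)) (ser N q)) (Nat.ble q N)

def lgU2 (N k q : ℕ) : ℕ :=
  Bool.rec (Nat.shiftLeft N (nat_lit 32))
    (Nat.add (Nat.add (Nat.mul k (nat_lit 2977044473)) (ser N q)) (nat_lit 54600)) (Nat.ble N (Nat.add q q))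

def lgL1 (N k : ℕ) : ℕ := lgL2 N k (Nat.shiftLeft (nat_lit 1) k)

def lgU1 (N k : ℕ) : ℕ := lgU2 N k (Nat.shiftLeft (nat_lit 1) k)

/-- Lower bound for `2^32 log N`. -/
def lgL (N : ℕ) : ℕ := lgL1 N (hint N)

/-- Upper bound for `2^32 log N`. -/
def lgU (N : ℕ) : ℕ := lgU1 N (hint N)

def sq2 (a b : ℕ) : ℕ := Nat.add (Nat.mul a a) (Nat.mul b b)

def nn (X Y c ya yb r : ℕ) : ℕ := sq2 (dd X c) (Nat.add (dd (Nat.add Y yb) ya) r)

def val (L : BL) (X Y : ℕ) : ℕ :=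
  BL.rec (nat_lit 0)
    (fun c ya yb r w _ ih => Nat.add (Nat.mul w (lgU (nn X Y c ya yb r))) ih)
    (fun c ya yb r w _ ih => Nat.add (Nat.mul w (Nat.sub (nat_lit 274877906944) (lgL (nn X Y c ya yb r)))) ih) L

def ep3 (N0 N1 u D : ℕ) : ℕ :=
  Nat.add (Nat.add (Nat.div (Nat.shiftLeft (Nat.mul (Nat.add u (Nat.sub N1 N0)) (Nat.add u (Nat.sub N1 N0))) (nat_lit 30))
    (Nat.mul N0 N1)) (Nat.div (Nat.shiftLeft D (nat_lit 32)) (Nat.sub N0 u))) (nat_lit 2)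

def ep2 (N0 N1 D : ℕ) : ℕ := ep3 N0 N1 (Nat.sub N0 N1) D

def ep1 (a0 b0 N1 r2 h : ℕ) : ℕ := ep2 (sq2 a0 b0) N1 (Nat.mul r2 (Nat.add (Nat.add a0 b0) h))

def en4 (H w m D : ℕ) : ℕ :=
  Bool.rec (Nat.mul w (Nat.succ (Nat.div (Nat.shiftLeft D (nat_lit 32)) (Nat.sub m D)))) H (Nat.ble m D)

def en3 (H w N0 N1 D : ℕ) : ℕ := en4 H w (Nat.sub N0 (Nat.sub N0 N1)) D

def en2 (H w a0 b0 N1 r2 h e : ℕ) : ℕ :=
  en3 H w (sq2 a0 b0) N1 (Nat.add (Nat.mul r2 (Nat.add (Nat.add a0 b0) h)) e)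

def en1 (H w a0 a1 s0 s1 s r r2 h q : ℕ) : ℕ :=
  en2 H w a0 (Nat.add s0 r) (sq2 a1 (Nat.add s1 r)) r2 h
    (Nat.add q (Nat.mul (Nat.add r r) (Nat.sub (Nat.add s0 s1) s)))

def err (L : BL) (H X0 Y0 X1 Y1 r2 h q YY : ℕ) : ℕ :=
  BL.rec (nat_lit 0)
    (fun c ya yb r w _ ih => Nat.add (Nat.mul w
      (ep1 (dd X0 c) (Nat.add (dd (Nat.add Y0 yb) ya) r) (nn X1 Y1 c ya yb r) r2 h)) ih)
    (fun c ya yb r w _ ih => Nat.add
      (en1 H w (dd X0 c) (dd X1 c) (dd (Nat.add Y0 yb) ya) (dd (Nat.add Y1 yb) ya)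
        (dd (Nat.add YY (Nat.add yb yb)) (Nat.add ya ya)) r r2 h q) ih) L

def seg2 (G v0 v1 e : ℕ) : Bool :=
  Bool.rec false (Nat.ble (Nat.add e v1) G) (Nat.ble (Nat.add e v0) G)

def seg1 (L : BL) (G X0 Y0 X1 Y1 r v0 v1 a b : ℕ) : Bool :=
  seg2 G v0 v1 (err L (Nat.succ G) X0 Y0 X1 Y1 (Nat.add r r) (Nat.add (Nat.add a b) r)
    (Nat.succ (Nat.div (sq2 a b) (nat_lit 4))) (Nat.add Y0 Y1))

def seg (L : BL) (G X0 Y0 X1 Y1 r v0 v1 : ℕ) : Bool :=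
  seg1 L G X0 Y0 X1 Y1 r v0 v1 (dd X0 X1) (dd Y0 Y1)

def chain1 (L : BL) (G E : ℕ) (fx fy : ℕ → ℕ) (fr : ℕ → ℕ → ℕ) (ts : List ℕ) : ℕ → ℕ → Bool :=
  List.rec (fun t0 _ => Nat.ble E t0)
    (fun t1 _ ih t0 v0 => Bool.rec false (Bool.rec false (ih t1 (val L (fx t1) (fy t1)))
      (seg L G (fx t0) (fy t0) (fx t1) (fy t1) (fr t0 t1) v0 (val L (fx t1) (fy t1)))) (Nat.ble t1 E)) ts

def chain (L : BL) (G E : ℕ) (fx fy : ℕ → ℕ) (fr : ℕ → ℕ → ℕ) (t0 : ℕ) (ts : List ℕ) : Bool :=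
  chain1 L G E fx fy fr ts t0 (val L (fx t0) (fy t0))

def nsum (L : BL) : ℕ := BL.rec 0 (fun _ _ _ _ _ _ ih => ih) (fun _ _ _ _ w _ ih => w + ih) L

def psum (L : BL) : ℕ := BL.rec 0 (fun _ _ _ _ w _ ih => w + ih) (fun _ _ _ _ _ _ ih => ih) L

/-- Positive blobs have positive radius. -/
def rp (L : BL) : Bool := BL.rec true (fun _ _ _ r _ _ ih => Nat.ble 1 r && ih) (fun _ _ _ _ _ _ ih => ih) L

def box1 (c ya yb r : ℕ) : Bool :=
  Nat.ble (58 * 2 ^ 32) c && Nat.ble c (70 * 2 ^ 32) && Nat.ble (ya + yb + r) (2 * 2 ^ 32)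

def box (L : BL) : Bool :=
  BL.rec true (fun c ya yb r _ _ ih => box1 c ya yb r && ih) (fun c ya yb r _ _ ih => box1 c ya yb r && ih) L

def cA (t : ℕ) : ℕ := 87 * 2 ^ 20 + 113 * t

def cN (t : ℕ) : ℕ := cA t * cA t + 210 * t * (210 * t)

def cx (t : ℕ) : ℕ := 2 ^ 38 + 2 ^ 32 * cA t * (cN t + (290 * 2 ^ 20) ^ 2) / (2 * (290 * 2 ^ 20) * cN t)

def cy (t : ℕ) : ℕ := 2 ^ 32 * (210 * t) * ((290 * 2 ^ 20) ^ 2 - cN t) / (2 * (290 * 2 ^ 20) * cN t)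

def cr (t0 t1 : ℕ) : ℕ := 2 ^ 32 * (t1 - t0) ^ 2 * 56869 * (290 * 2 ^ 20) / (8 * cA t0 ^ 3) + 2

/-- A blob of the certificate with its four weights. -/
structure Bl : Type where
  c : ℕ
  ya : ℕ
  yb : ℕ
  r : ℕ
  w1 : ℤ
  w2 : ℤ
  w3 : ℤ
  w4 : ℤ

def mk1 (c ya yb r : ℕ) (w : ℤ) (t : BL) : BL :=
  Int.rec (fun n => BL.pos c ya yb r n t) (fun n => BL.neg c ya yb r (Nat.succ n) t) w

def toBL (ya yb r : Bl → ℕ) (w : Bl → ℤ) (D : List Bl) : BL :=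
  List.rec BL.nil (fun b _ ih => mk1 b.c (ya b) (yb b) (r b) (w b) ih) D

def ww4 (a b : Bl) : ℤ :=
  Int.neg (Int.add (Int.add (Int.add (Int.mul a.w1 b.w1) (Int.mul a.w2 b.w2)) (Int.mul a.w3 b.w3)) (Int.mul a.w4 b.w4))

def enL (D : List Bl) (a : Bl) : BL :=
  toBL (fun b => Nat.add b.ya a.yb) Bl.yb (fun b => Nat.add a.r b.r) (ww4 a) D

def enV (D D' : List Bl) : ℕ := List.rec 0 (fun a _ ih => Nat.add (val (enL D a) a.c a.ya) ih) D'

def enN (D D' : List Bl) : ℕ := List.rec 0 (fun a _ ih => Nat.add (nsum (enL D a)) ih) D'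

end

end Vale.Agent.P030.Ck
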