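import Mathlib

/-!
# P030: definitions and the statements of all steps (see skel/P030/BLUEPRINT.md)
-/

namespace Vale.Agent.P030

open Polynomial Finset MeasureTheory Filter

/-! ## Rational sequences -/

/-- `C(2m,m)/4^m`. -/
def cc (m : ℕ) : ℚ := (Nat.centralBinom m : ℚ) / 4 ^ m

/-- Coefficient of `t^k` in `1/sqrt(1-t^2)`. -/
def cz (k : ℤ) : ℚ := if 0 ≤ k ∧ k % 2 = 0 then cc (k / 2).toNat else 0

/-- Moment: the integral of `|t| t^(m-1)/sqrt(1-t^2)` over `(-1,1)` for `m > 0`. -/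
def aa (m : ℤ) : ℚ := if 0 < m ∧ m % 2 = 1 then 2 / ((m : ℚ) * cc (m / 2).toNat) else 0

def zz (m : ℤ) : ℚ := if 0 < m then 1 / (m : ℚ) else 0

def KM (d : ℤ) : ℚ :=
  if 0 ≤ d then
    (if d % 2 = 0 then cz d * ∑ k ∈ range (d / 2).toNat, aa (2 * k + 1) ^ 2 / 2
      else aa d * ∑ k ∈ range ((d / 2).toNat + 1), 1 / (2 * (k : ℚ) + 1))
  else
    (if d % 2 = 1 then cz (-d - 1) * ∑ k ∈ range ((-d - 1) / 2).toNat, aa (2 * k + 1) / (2 * (k : ℚ) + 2)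
      else aa (-d - 1) * ∑ k ∈ range (-d / 2).toNat, cc k / (2 * (k : ℚ) + 1))

def KZ (d : ℤ) : ℚ := (∑ k ∈ range d.natAbs, 1 / ((k : ℚ) + 1)) / (d.natAbs : ℚ)

def TT (K a : ℤ → ℚ) (i : ℤ) (j : ℕ) : ℚ :=
  K (i - j) - ∑ r ∈ range j, a (i - j + r + 1) / ((r : ℚ) + 1)

def MM : ℤ → ℕ → ℚ := TT KM aa

def ZZ : ℤ → ℕ → ℚ := TT KZ zz

/-- The rational part of the pairing of a row `(S, D)` with a column `Q`. -/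
noncomputable def form (I : ℕ) (S D Q : ℚ[X]) : ℚ :=
  ∑ k ∈ range (I + 1), ∑ j ∈ range (I + 1),
    (S.coeff k * MM ((I : ℤ) - k) j - 3 / 2 * D.coeff k * ZZ ((I : ℤ) - k) j) * Q.coeff j

/-- The coefficient of Catalan's constant in the pairing. -/
noncomputable def formG (I : ℕ) (S Q : ℚ[X]) : ℚ :=
  ∑ k ∈ range (I + 1), ∑ j ∈ range (I + 1), S.coeff k * (4 * cz ((I : ℤ) - k - j)) * Q.coeff j

noncomputable def S0 (R : Type) [CommRing R] (e : ℤ) : R[X] := Chebyshev.T R e - Chebyshev.T R (e + 1)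

noncomputable def D0 (R : Type) [CommRing R] (e : ℤ) : R[X] := Chebyshev.U R (e - 1) - Chebyshev.U R e

noncomputable def rowS (N : ℕ) (e : Fin (20 * N)) : ℚ[X] := (X - 1) ^ N * S0 ℚ (((e : ℕ) : ℤ) - 2 * N)

noncomputable def rowD (N : ℕ) (e : Fin (20 * N)) : ℚ[X] := (X - 1) ^ N * D0 ℚ (((e : ℕ) : ℤ) - 2 * N)

noncomputable def colQ (N : ℕ) (k : Fin (20 * N)) : ℚ[X] := (1 - X) ^ N * X ^ (3 * N + (k : ℕ))

noncomputable def B0 (N : ℕ) : Matrix (Fin (20 * N)) (Fin (20 * N)) ℚ :=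
  Matrix.of fun e k => form (27 * N - 1) (rowS N e) (rowD N e) (colQ N k)

noncomputable def B1 (N : ℕ) : Matrix (Fin (20 * N)) (Fin (20 * N)) ℚ :=
  Matrix.of fun e k => formG (27 * N - 1) (rowS N e) (colQ N k)

noncomputable def Delta (N : ℕ) (a b : ℤ) : ℚ := ((b : ℚ) • B0 N + (a : ℚ) • B1 N).det

/-- Integer combinations of rows and columns. -/
noncomputable def sS (N : ℕ) (f : Fin (20 * N) → ℤ) : ℚ[X] := ∑ e, (f e : ℚ) • rowS N e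

noncomputable def sD (N : ℕ) (f : Fin (20 * N) → ℤ) : ℚ[X] := ∑ e, (f e : ℚ) • rowD N e

noncomputable def sQ (N : ℕ) (g : Fin (20 * N) → ℤ) : ℚ[X] := ∑ k, (g k : ℚ) • colQ N k

/-! ## The local ring at `p` -/

/-- Rationals whose denominator is prime to `p`. -/
def O (p : ℕ) [hp : Fact p.Prime] : Subring ℚ where
  carrier := {x | ¬ p ∣ x.den}
  mul_mem' := fun {a b} ha hb h =>
    (hp.out.dvd_mul.1 (h.trans (Rat.mul_den_dvd a b))).elim ha hb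
  one_mem' := by simpa using hp.out.one_lt.ne'
  add_mem' := fun {a b} ha hb h =>
    (hp.out.dvd_mul.1 (h.trans (Rat.add_den_dvd a b))).elim ha hb
  zero_mem' := by simpa using hp.out.one_lt.ne'
  neg_mem' := fun {a} ha => by simpa using ha

/-- Congruence modulo `p` in the local ring. -/
def Cg (p : ℕ) [Fact p.Prime] (x y : ℚ) : Prop := (x - y) / p ∈ O p

def chi (p : ℕ) : ℚ := (-1) ^ (p / 2)

def bb (p r : ℕ) : ℚ := (-1) ^ r * ((p / 2).choose r : ℚ)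

def fr (p : ℕ) (f : ℤ → ℚ) (k : ℤ) : ℚ :=
  ∑ r ∈ range (p / 2 + 1), if (p : ℤ) ∣ k - 2 * r then bb p r * f ((k - 2 * r) / p) else 0

/-- Coefficient with an integer index. -/
noncomputable def cf (P : ℚ[X]) (m : ℤ) : ℚ := if 0 ≤ m then P.coeff m.toNat else 0

/-- The exponent of the odd prime `p` in the common denominator (truncated subtractions). -/
def ex (N p : ℕ) : ℕ :=
  if p < 10 * N then 40 * N * Nat.log p (27 * N)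
  else if p ≤ 14 * N then 33 * N + max (3 * N) (27 * N - 2 * p) - (2 * p - 27 * N)
  else (27 * N - p) + (16 * N - p) + 2 * (24 * N - p)

/-- The exponent of `2` in the common denominator. -/
def E2 (N : ℕ) : ℕ := 42 * N ^ 2 + 41 * N + 40 * N * Nat.log 2 (54 * N)

/-- The finite linear system of the nonvanishing argument. -/
def nvE (last : ℕ → ℚ) (r c : ℕ) : ℚ :=
  if r < 16 then (if c < 20 then cz ((c : ℤ) - r - 4) else if c = r + 23 then -1 else 0)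
  else if r = 16 then (if c < 20 then 1 else 0)
  else if r = 17 then (if c < 20 then 0 else 1)
  else if r < 38 then
    (if c < 20 then MM (26 - (c : ℤ)) (r - 15) - MM (26 - (c : ℤ)) (r - 14)
      else -(3 / 2) * (ZZ (46 - (c : ℤ)) (r - 15) - ZZ (46 - (c : ℤ)) (r - 14)))
  else (if c < 20 then last c else 0)

def nvMat (last : ℕ → ℚ) : Matrix (Fin 39) (Fin 39) ℚ := Matrix.of fun r c => nvE last r c

/-! ## Statements: arithmetic -/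

def LatticeStmt : Prop :=
  ∀ (p : ℕ) [Fact p.Prime] (n : ℕ) (A : Matrix (Fin n) (Fin n) ℚ) (c : ℚ)
    (ι κ : Type) [Fintype ι] [Fintype κ]
    (l : ι → (Fin n → ℤ) →+ ℚ) (e : ι → ℕ) (m : κ → (Fin n → ℤ) →+ ℚ) (e' : κ → ℕ),
    (∀ i f, l i f ∈ O p) → (∀ k g, m k g ∈ O p) →
    (∀ f g : Fin n → ℤ, (∀ i, l i f / (p : ℚ) ^ e i ∈ O p) → (∀ k, m k g / (p : ℚ) ^ e' k ∈ O p) →
      c * ∑ r, ∑ s, (f r : ℚ) * A r s * (g s : ℚ) ∈ O p) →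
    (p : ℚ) ^ (∑ i, e i + ∑ k, e' k) * c ^ n * A.det ∈ O p

def Frob1Stmt : Prop :=
  ∀ (p : ℕ) [Fact p.Prime], p ≠ 2 →
    (∀ k : ℤ, cz k ∈ O p) ∧ (∀ r : ℕ, r ≤ p / 2 → Cg p (cc r) (bb p r)) ∧
    (∀ (M : ℕ) (m : ℤ), m ≤ M → (p : ℚ) ^ Nat.log p M * aa m ∈ O p) ∧
    (∀ (R : ℕ) (k : ℤ), R < p → k < p * R →
      Cg p (cz k) (fr p cz k) ∧ Cg p (p * aa k) (chi p * fr p aa k))

def Frob2Stmt : Prop :=
  ∀ (p : ℕ) [Fact p.Prime], p ≠ 2 →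
    (∀ (M : ℕ) (d : ℤ), |d| ≤ M →
      (p : ℚ) ^ (2 * Nat.log p M) * KM d ∈ O p ∧ (p : ℚ) ^ (2 * Nat.log p M) * KZ d ∈ O p) ∧
    (∀ (R : ℕ) (d : ℤ), R < p → |d| < p * R →
      Cg p ((p : ℚ) ^ 2 * KM d) (chi p * fr p KM d) ∧
      Cg p ((p : ℚ) ^ 2 * KZ d) (if (p : ℤ) ∣ d then KZ (d / p) else 0))

def FormStmt : Prop :=
  ∀ (p : ℕ) [Fact p.Prime], p ≠ 2 → ∀ (I : ℕ) (S D : ℚ[X]),
    (∀ k, S.coeff k ∈ O p) → (∀ k, D.coeff k ∈ O p) →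
    (∀ Q : ℚ[X], (∀ k, Q.coeff k ∈ O p) →
      (p : ℚ) ^ (2 * Nat.log p I) * form I S D Q ∈ O p ∧ formG I S Q ∈ O p) ∧
    (∀ R ρ j : ℕ, R < p → I < p * R → S.natDegree ≤ I → ρ < p → ρ + p * j ≤ I →
      Cg p ((p : ℚ) ^ 2 * form I S D (X ^ (ρ + p * j)))
        (∑ k ∈ range (R + 1),
          (chi p * cf (S * (1 - X ^ 2) ^ (p / 2)) ((I : ℤ) - ρ - p * ((k : ℤ) - 1)) * MM ((k : ℤ) - 1) j
            - 3 / 2 * cf D ((I : ℤ) - ρ - p * k) * ZZ k j)))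

def OddAStmt : Prop :=
  ∀ (N p : ℕ) [Fact p.Prime] (a b : ℤ), 1 ≤ N → p ≠ 2 → p ≤ 14 * N →
    (p : ℚ) ^ ex N p * Delta N a b ∈ O p

def OddBStmt : Prop :=
  ∀ (N p : ℕ) [Fact p.Prime] (a b : ℤ), 1 ≤ N → 14 * N < p → (p : ℚ) ^ ex N p * Delta N a b ∈ O p

def PadeStmt : Prop :=
  ∀ (N : ℕ) (e : Fin (20 * N)) (j : ℕ), j < 24 * N →
    ∑ k ∈ range (27 * N), (rowS N e).coeff k * cz ((j : ℤ) + k - 27 * N) =
      (rowD N e).coeff (27 * N - 1 - j)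

def TwoStmt : Prop :=
  ∀ (N : ℕ) (a b : ℤ), 1 ≤ N → (2 : ℚ) ^ E2 N * Delta N a b ∈ O 2

def FinStmt : Prop := (nvMat fun c => (c : ℚ)).det ≠ 0 ∧ (nvMat fun c => (-1) ^ c).det ≠ 0

def NonvanStmt : Prop :=
  ∃ p0 : ℕ, ∀ p : ℕ, p.Prime → p0 ≤ p → ∀ a b : ℤ, ¬ (p : ℤ) ∣ b → Delta p a b ≠ 0

def PrimesStmt : Prop :=
  ∀ ε : ℝ, 0 < ε → ∀ᶠ N : ℕ in atTop,
    ∑ p ∈ (range (27 * N + 1)).filter Nat.Prime, (ex N p : ℝ) * Real.log p ≤ (2937 / 4 + ε) * (N : ℝ) ^ 2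

def LowerStmt : Prop :=
  ∀ ε : ℝ, 0 < ε → ∀ᶠ N : ℕ in atTop, ∀ a b : ℤ, Delta N a b ≠ 0 →
    Real.exp (-(2937 / 4 + 42 * Real.log 2 + ε) * (N : ℝ) ^ 2) ≤ |(Delta N a b : ℝ)|

/-! ## Real and complex definitions -/

/-- Catalan's constant. -/
noncomputable def GG : ℝ := ∑' j : ℕ, (-1 : ℝ) ^ j / (2 * (j : ℝ) + 1) ^ 2

noncomputable def tt (x : ℝ) : ℝ := 2 * x / (1 + x ^ 2)

noncomputable def sig (x : ℝ) : ℝ := (x + x⁻¹) / 2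

noncomputable def ww (x : ℝ) : ℝ := (x⁻¹ - x) / 2

noncomputable def psi (e : ℤ) (x : ℝ) : ℝ :=
  (S0 ℝ e).eval (sig x) - if 0 < x then 3 / 2 * ww x * (D0 ℝ e).eval (sig x) else 0

noncomputable def Wt (N : ℕ) (x : ℝ) : ℝ :=
  2 / (1 + x ^ 2) * |tt x| * tt x ^ (26 * N - 1) * (1 - tt x) ^ N

noncomputable def qq (N k : ℕ) (s : ℝ) : ℝ := (1 - s) ^ N * s ^ (3 * N + k)

noncomputable def mx : Measure ℝ := volume.restrict (Set.Ioo (-1) 1)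

noncomputable def ms : Measure ℝ := volume.restrict (Set.Ioo 0 1)

/-- Admissible nodes. -/
def Ax : Set ℝ := {x | -1 < x ∧ x < 1 ∧ x ≠ 0 ∧ x ≠ 3 / 10}

noncomputable def hx (x : ℝ) : ℝ := (√|x - 3 / 10|)⁻¹

/-- Absolute value of a Vandermonde product. -/
noncomputable def VV {ι : Type} [DecidableEq ι] (s : Finset ι) (p : ι → ℂ) : ℝ :=
  √(∏ i ∈ s, ∏ j ∈ s.erase i, ‖p i - p j‖)

noncomputable def CR {ι κ : Type} (s : Finset ι) (p : ι → ℂ) (t : Finset κ) (q : κ → ℂ) : ℝ :=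
  ∏ i ∈ s, ∏ j ∈ t, ‖p i - q j‖

/-- Parameter space of the contour: four pieces. -/
abbrev Om : Type := Fin 4 × ℝ

noncomputable def mo : Measure Om := (Measure.count : Measure (Fin 4)).prod ms

def Ao : Set Om := {ω | 0 < ω.2 ∧ ω.2 < 1}

noncomputable def ho (ω : Om) : ℝ := (√(ω.2 * (1 - ω.2)))⁻¹

noncomputable def z2 : ℂ := ⟨20 / 29, 21 / 29⟩

noncomputable def z3 : ℂ := ⟨20 / 29, -(21 / 29)⟩

noncomputable def ph0 : ℝ := Real.arccos (20 / 29)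

noncomputable def zc (z : ℂ) (τ : ℝ) : ℂ := 3 / 10 + τ * (z - 3 / 10)

noncomputable def sigc (z : ℂ) : ℂ := (z + z⁻¹) / 2

noncomputable def uu (ω : Om) : ℂ :=
  ![((Real.cos (Real.pi * ω.2) : ℝ) : ℂ), ((Real.cos (ph0 * ω.2) : ℝ) : ℂ),
    sigc (zc z2 ω.2), sigc (zc z3 ω.2)] ω.1

noncomputable def kap (ω : Om) : ℂ :=
  ![3 / 2, -(ph0 : ℂ) / (2 * Real.pi), (z2 - 3 / 10) / (4 * Real.pi * Complex.I * zc z2 ω.2),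
    -(z3 - 3 / 10) / (4 * Real.pi * Complex.I * zc z3 ω.2)] ω.1 * (uu ω - 1)

/-- Lower bound for the distance from `uu ω` to the half line `[1, ∞)`. -/
noncomputable def mm (ω : Om) : ℝ := if (ω.1 : ℕ) < 2 then 1 - (uu ω).re else |(uu ω).im|

noncomputable def St (e : ℤ) : ℂ[X] := S0 ℂ e /ₘ (X - C 1)

noncomputable def A0 (e : ℤ) : ℂ[X] :=
  if e < 0 then 2 * (Chebyshev.U ℂ (-e - 1) - Chebyshev.U ℂ (-e - 2)) else 0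

noncomputable def sg {n : ℕ} (x : Fin n → ℝ) : Fin n → ℂ := fun i => ((sig (x i) : ℝ) : ℂ)

/-- The product produced by the row determinant. -/
noncomputable def RB {n r : ℕ} (x : Fin n → ℝ) (a : Finset (Fin n)) (ω : Fin r → Om) : ℝ :=
  (∏ i ∈ a, |sig (x i) - 1|) * (∏ i ∈ aᶜ, |ww (x i)|) *
    (VV a (sg x) * VV univ (fun l => uu (ω l)) * CR a (sg x) univ (fun l => uu (ω l))) *
    (VV aᶜ (sg x) * VV univ (fun l => uu (ω l)) / CR aᶜ (sg x) univ (fun l => uu (ω l))) *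
    ∏ l, ‖kap (ω l)‖

/-- The product produced by the weights, the kernel determinant and the column determinant. -/
noncomputable def SB (N : ℕ) {n : ℕ} (x s : Fin n → ℝ) : ℝ :=
  (∏ i, |Wt N (x i)| * |sig (x i)|) *
    (VV univ (sg x) * VV univ (fun j => (s j : ℂ)) / CR univ (sg x) univ (fun j => (s j : ℂ))) *
    VV univ (fun j => (s j : ℂ)) * ∏ j, qq N 0 (s j)

noncomputable def kk (a b : ℝ) : ℝ := Real.log (a ^ 2 + b ^ 2) / 2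

/-- Potential of a finite family of weighted blobs. -/
noncomputable def pot {K : ℕ} (c y ρ w : Fin K → ℝ) (z : ℂ) : ℝ :=
  ∑ k, w k * kk (z.re - c k) (|z.im - y k| + ρ k)

noncomputable def en {K : ℕ} (c y ρ w : Fin K → ℝ) : ℝ :=
  ∑ k, ∑ l, w k * w l * kk (c k - c l) (|y k - y l| + ρ k + ρ l)

/-- Data of the energy certificate. -/
structure CD where
  K : ℕ
  c : Fin K → ℝ
  y : Fin K → ℝ
  ρ : Fin K → ℝ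
  w1 : Fin K → ℝ
  w2 : Fin K → ℝ
  w3 : Fin K → ℝ
  w4 : Fin K → ℝ
  Fb : ℝ
  Fu : ℝ
  Fs : ℝ

noncomputable def CD.U (d : CD) (w : Fin d.K → ℝ) (z : ℂ) : ℝ := pot d.c d.y d.ρ w z

noncomputable def CD.E (d : CD) (w : Fin d.K → ℝ) : ℝ := en d.c d.y d.ρ w

structure CD.OK (d : CD) : Prop where
  pos : ∀ k, 0 < d.ρ k
  m1 : ∑ k, d.w1 k = 2
  m2 : ∑ k, d.w2 k = 18
  m3 : ∑ k, d.w3 k = 0
  m4 : ∑ k, d.w4 k = 20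
  ha : ∀ σ : ℝ, (σ ≤ -1 ∨ 109 / 60 ≤ σ) →
    d.U d.w2 σ + d.U d.w3 σ + Real.log |σ - 1| - 27 * Real.log |σ| ≤ d.Fb + d.Fu
  hb : ∀ σ : ℝ, 1 < σ → d.U d.w1 σ + d.U d.w3 σ + Real.log |σ - 1| - 27 * Real.log |σ| ≤ d.Fb
  hu : ∀ u : ℝ, -1 ≤ u → u ≤ 1 → d.U d.w2 u - d.U d.w1 u ≤ d.Fu
  hc : ∀ τ : ℝ, 0 ≤ τ → τ ≤ 1 →
    d.U d.w2 (sigc (zc z2 τ)) - d.U d.w1 (sigc (zc z2 τ)) ≤ d.Fu ∧
    d.U d.w2 (sigc (zc z3 τ)) - d.U d.w1 (sigc (zc z3 τ)) ≤ d.Fu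
  hs : ∀ s : ℝ, 0 < s → s < 1 → d.U d.w4 s - d.U d.w3 s + 3 * Real.log s + Real.log (1 - s) ≤ d.Fs
  tot : 20 * d.Fb + 18 * d.Fu + 20 * d.Fs - (d.E d.w1 + d.E d.w2 + d.E d.w3 + d.E d.w4) / 2
    + 164 * Real.log 2 ≤ -765

/-! ## Statements: analysis -/

def MomStmt : Prop :=
  (∀ m : ℕ, ∫ x in Set.Ioo (-1 : ℝ) 1, 2 / (1 + x ^ 2) * |tt x| * tt x ^ m = (aa ((m : ℤ) + 1) : ℝ)) ∧
  (∀ m : ℕ, ∫ x in Set.Ioo (0 : ℝ) 1, 2 / (1 + x ^ 2) * ((1 - x ^ 2) / (1 + x ^ 2)) * tt x ^ m =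
    1 / ((m : ℝ) + 1))

def ConstStmt : Prop :=
  HasSum (fun k : ℕ => (aa ((k : ℤ) + 1) : ℝ) / ((k : ℝ) + 1)) (4 * GG) ∧
  HasSum (fun k : ℕ => (aa ((k : ℤ) + 1) : ℝ) / ((k : ℝ) + 2)) (Real.pi ^ 2 / 4)

def SerStmt : Prop :=
  ∀ i j : ℕ,
    HasSum (fun k : ℕ => (aa ((i : ℤ) + k + 1) : ℝ) / ((j : ℝ) + k + 1))
      ((MM i j : ℝ) + 4 * GG * (cz ((i : ℤ) - j) : ℝ) + Real.pi ^ 2 / 4 * (cz ((j : ℤ) - i - 1) : ℝ)) ∧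
    HasSum (fun k : ℕ => 1 / (((i : ℝ) + k + 1) * ((j : ℝ) + k + 1)))
      ((ZZ i j : ℝ) + if i = j then Real.pi ^ 2 / 6 else 0)

def EntryStmt : Prop :=
  ∀ (N : ℕ) (e k : Fin (20 * N)),
    Integrable (fun z : ℝ × ℝ => (Wt N z.1 * psi (((e : ℕ) : ℤ) - 2 * N) z.1) * (1 - tt z.1 * z.2)⁻¹ *
      qq N k z.2) (mx.prod ms) ∧
    (B0 N e k : ℝ) + GG * (B1 N e k : ℝ) =
      ∫ z : ℝ × ℝ, (Wt N z.1 * psi (((e : ℕ) : ℤ) - 2 * N) z.1) * (1 - tt z.1 * z.2)⁻¹ * qq N k z.2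
        ∂(mx.prod ms)

def And1Stmt : Prop :=
  ∀ (Ω : Type) [MeasurableSpace Ω] (μ : Measure Ω) [SigmaFinite μ] (n : ℕ) (f g : Fin n → Ω → ℂ)
    (h : Ω → ℝ) (A : Set Ω) (C : ℝ),
    (∀ i j, Integrable (fun ω => f i ω * g j ω) μ) → Integrable h μ → (∀ ω, 0 ≤ h ω) →
    (∀ᵐ ω ∂μ, ω ∈ A) → 0 ≤ C →
    (∀ ω : Fin n → Ω, (∀ l, ω l ∈ A) →
      ‖(Matrix.of fun i l => f i (ω l)).det‖ * ‖(Matrix.of fun j l => g j (ω l)).det‖ ≤ C * ∏ l, h (ω l)) →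
    ‖(Matrix.of fun i j => ∫ ω, f i ω * g j ω ∂μ).det‖ ≤ C * (∫ ω, h ω ∂μ) ^ n

def And2Stmt : Prop :=
  ∀ (μ ν : Measure ℝ) [SigmaFinite μ] [SigmaFinite ν] (n : ℕ) (f g : Fin n → ℝ → ℝ) (K : ℝ → ℝ → ℝ)
    (h h' : ℝ → ℝ) (A B : Set ℝ) (C : ℝ),
    (∀ i j, Integrable (fun z : ℝ × ℝ => f i z.1 * K z.1 z.2 * g j z.2) (μ.prod ν)) →
    Integrable h μ → (∀ x, 0 ≤ h x) → Integrable h' ν → (∀ x, 0 ≤ h' x) →
    (∀ᵐ x ∂μ, x ∈ A) → (∀ᵐ s ∂ν, s ∈ B) → 0 ≤ C →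
    (∀ x s : Fin n → ℝ, (∀ l, x l ∈ A) → (∀ l, s l ∈ B) →
      |(Matrix.of fun i l => f i (x l)).det| * |(Matrix.of fun l m => K (x l) (s m)).det| *
        |(Matrix.of fun j m => g j (s m)).det| ≤ C * (∏ l, h (x l)) * ∏ m, h' (s m)) →
    |(Matrix.of fun i j => ∫ z : ℝ × ℝ, f i z.1 * K z.1 z.2 * g j z.2 ∂(μ.prod ν)).det| ≤
      C * (∫ x, h x ∂μ) ^ n * (∫ s, h' s ∂ν) ^ n

def CauchyStmt : Prop :=
  (∀ (n : ℕ) (x : Fin n → ℂ), ‖(Matrix.of fun i j : Fin n => x i ^ (j : ℕ)).det‖ = VV univ x) ∧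
  (∀ (n : ℕ) (x y : Fin n → ℂ), (∀ i j, x i ≠ y j) →
    ‖(Matrix.of fun i j => (x i - y j)⁻¹).det‖ = VV univ x * VV univ y / CR univ x univ y) ∧
  (∀ (ι : Type) [DecidableEq ι] (s t : Finset ι) (p : ι → ℂ), Disjoint s t →
    VV (s ∪ t) p = VV s p * VV t p * CR s p t p) ∧
  (∀ (ι κ : Type) [DecidableEq ι] [DecidableEq κ] (s : Finset ι) (φ : ι ↪ κ) (p : κ → ℂ),
    VV (s.map φ) p = VV s (fun i => p (φ i)))

def LensStmt : Prop :=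
  (∀ (e : ℤ) (x : ℝ), x < 0 → (psi e x : ℂ) = ((sig x : ℝ) - 1 : ℂ) * (St e).eval ((sig x : ℝ) : ℂ)) ∧
  ∀ x : ℝ, 0 < x → x < 1 → x ≠ 3 / 10 →
    (∀ P : ℂ[X], Integrable (fun ω => P.eval (uu ω) * kap ω * (((sig x : ℝ) : ℂ) - uu ω)⁻¹) mo) ∧
    ∀ e : ℤ, (psi e x : ℂ) =
      (ww x : ℝ) * (3 / 2 * (A0 e).eval ((sig x : ℝ) : ℂ) +
        ∫ ω, (St e).eval (uu ω) * kap ω * (((sig x : ℝ) : ℂ) - uu ω)⁻¹ ∂mo) -
      if x < 3 / 10 then 1 / 2 * (((sig x : ℝ) - 1 : ℂ) * (St e).eval ((sig x : ℝ) : ℂ)) else 0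

def GeoStmt : Prop :=
  (∀ x : ℝ, 0 < x → x < 1 → ∀ ω ∈ Ao,
    1 / 20 * |x - 3 / 10| * (1 - x) ^ 2 ≤ ‖((sig x : ℝ) : ℂ) - uu ω‖ ∧ mm ω ≤ ‖((sig x : ℝ) : ℂ) - uu ω‖) ∧
  (∀ ω ∈ Ao, 0 < mm ω ∧ mm ω ≤ 2 ∧ ‖kap ω‖ ≤ 10 * √(mm ω) * ho ω) ∧
  Integrable ho mo ∧ Integrable hx mx ∧ (∀ᵐ ω ∂mo, ω ∈ Ao) ∧ (∀ᵐ x ∂mx, x ∈ Ax)

def ElimStmt : Prop :=
  ∀ (N : ℕ) (x : Fin (20 * N) → ℝ) (C : ℝ), (∀ i, x i ∈ Ax) → Function.Injective (sg x) → 0 ≤ C →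
    (∀ (a : Finset (Fin (20 * N))) (r : ℕ) (ω : Fin r → Om), (∀ i ∉ a, 0 < x i) →
      (∀ i ∈ a, x i < 3 / 10) → a.card + r = 18 * N → (∀ l, ω l ∈ Ao) → RB x a ω ≤ C * ∏ l, ho (ω l)) →
    |(Matrix.of fun (e i : Fin (20 * N)) => psi (((e : ℕ) : ℤ) - 2 * N) (x i)).det| ≤
      2 ^ (164 * N ^ 2) * 4 ^ (20 * N) * C * max 1 (∫ ω, ho ω ∂mo) ^ (18 * N)

def CndStmt : Prop :=
  ∀ (ι : Type) [Fintype ι] (c y ρ ξ : ι → ℝ), (∀ i, 0 < ρ i) → ∑ i, ξ i = 0 →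
    ∑ i, ∑ j, ξ i * ξ j * kk (c i - c j) (|y i - y j| + ρ i + ρ j) ≤ 0

def OneStmt : Prop :=
  ∀ (ι κ : Type) [DecidableEq ι] [DecidableEq κ] (s : Finset ι) (t : Finset κ) (p : ι → ℂ) (q : κ → ℂ)
    (rp : ι → ℝ) (rq : κ → ℝ) (K : ℕ) (c y ρ w : Fin K → ℝ) (lam ε δ ρ0 : ℝ),
    0 < ρ0 → (∀ k, ρ0 ≤ ρ k) → 0 ≤ lam → lam * ∑ k, w k = (s.card : ℝ) - t.card → 0 ≤ ε →
    (∀ i ∈ s, 0 < rp i ∧ rp i ≤ δ) → (∀ j ∈ t, 0 < rq j ∧ rq j ≤ δ) →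
    (∀ i ∈ s, ∀ j ∈ t, rp i + rq j ≤ ε * ‖p i - q j‖) →
    VV s p * VV t q / CR s p t q ≤
      Real.exp (lam * (∑ i ∈ s, pot c y ρ w (p i) - ∑ j ∈ t, pot c y ρ w (q j))
        - lam ^ 2 * en c y ρ w / 2 + (s.card : ℝ) * t.card * ε
        + lam * ((s.card : ℝ) + t.card) * (∑ k, |w k|) * δ / ρ0
        - (∑ i ∈ s, Real.log (2 * rp i)) / 2 - (∑ j ∈ t, Real.log (2 * rq j)) / 2)

def CertStmt : Prop := ∃ d : CD, d.OK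

def NodeStmt : Prop :=
  ∀ d : CD, d.OK → ∃ C : ℝ, 1 ≤ C ∧ ∀ N : ℕ, 1 ≤ N →
    (∀ x ∈ Ax, x < 3 / 10 →
      |sig x - 1| * (|Wt N x| * |sig x|) *
        Real.exp (N * (d.U d.w2 (sig x : ℝ) + d.U d.w3 (sig x : ℝ))) / (1 - x) ≤
      C * Real.exp (N * (d.Fb + d.Fu)) * hx x) ∧
    (∀ x ∈ Ax, 0 < x →
      |ww x| * (|Wt N x| * |sig x|) *
        Real.exp (N * (d.U d.w1 (sig x : ℝ) + d.U d.w3 (sig x : ℝ))) / (1 - x) ^ 2 ≤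
      C * Real.exp (N * d.Fb)) ∧
    (∀ s : ℝ, 0 < s → s < 1 →
      qq N 0 s * Real.exp (N * (d.U d.w4 s - d.U d.w3 s)) / √(1 - s) ≤ C * Real.exp (N * d.Fs)) ∧
    (∀ ω ∈ Ao, d.U d.w2 (uu ω) - d.U d.w1 (uu ω) ≤ d.Fu)

def EnergyStmt : Prop :=
  ∀ η : ℝ, 0 < η → ∀ᶠ N : ℕ in atTop, ∀ (x s : Fin (20 * N) → ℝ) (a : Finset (Fin (20 * N))) (r : ℕ)
    (ω : Fin r → Om), (∀ i, x i ∈ Ax) → (∀ j, 0 < s j ∧ s j < 1) → (∀ i ∉ a, 0 < x i) →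
    (∀ i ∈ a, x i < 3 / 10) → a.card + r = 18 * N → (∀ l, ω l ∈ Ao) →
    RB x a ω * SB N x s ≤
      Real.exp ((-765 - 164 * Real.log 2 + η) * (N : ℝ) ^ 2) * (∏ i, hx (x i)) * ∏ l, ho (ω l)

def UpperStmt : Prop :=
  ∀ η : ℝ, 0 < η → ∀ᶠ N : ℕ in atTop,
    |(Matrix.of fun e k : Fin (20 * N) => (B0 N e k : ℝ) + GG * (B1 N e k : ℝ)).det| ≤
      Real.exp ((-765 + η) * (N : ℝ) ^ 2)

end Vale.Agent.P030
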