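import Vale.Agent.P030.Defs
import Vale.Agent.P031.WI

namespace Vale.Agent.P030

open Finset Filter Topology

namespace Primes

/-- Summed Chebyshev function. -/
noncomputable def FF (k M : ℕ) : ℝ := ∑ m ∈ range M, Chebyshev.theta ((m : ℝ) / k)

theorem sum_eq {k M L : ℕ} (hk : 0 < k) (hM : M ≤ L) :
    ∑ p ∈ (range (L + 1)).filter Nat.Prime, ((M - k * p : ℕ) : ℝ) * Real.log p = FF k M := by
  have h1 : ∀ m ∈ range M, Chebyshev.theta ((m : ℝ) / k)
      = ∑ p ∈ (range (L + 1)).filter Nat.Prime, if k * p ≤ m then Real.log p else 0 := by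
    intro m hm
    have hm' := mem_range.1 hm
    rw [← sum_filter, Chebyshev.theta, Nat.floor_div_natCast, Nat.floor_natCast]
    refine sum_congr ?_ fun _ _ => rfl
    ext p
    simp only [mem_filter, mem_Ioc, mem_range, Nat.le_div_iff_mul_le hk, mul_comm p k]
    constructor
    · rintro ⟨⟨-, h2⟩, h3⟩
      have := Nat.le_mul_of_pos_left p hk
      exact ⟨⟨by omega, h3⟩, h2⟩
    · rintro ⟨⟨-, h3⟩, h2⟩
      exact ⟨⟨h3.pos, h2⟩, h3⟩
  rw [FF, sum_congr rfl h1, sum_comm]
  refine sum_congr rfl fun p _ => ?_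
  have h2 : (range M).filter (fun m => k * p ≤ m) = Ico (k * p) M := by
    ext m
    simp only [mem_filter, mem_range, mem_Ico, and_comm]
  rw [← sum_filter, h2, sum_const, Nat.card_Ico, nsmul_eq_mul]

theorem sum_id (M : ℕ) : ∑ m ∈ range M, (m : ℝ) = M * (M - 1) / 2 := by
  induction M with
  | zero => simp
  | succ M ih => rw [sum_range_succ, ih]; push_cast; ring

theorem lim_FF {k : ℕ} (hk : 0 < k) :
    Tendsto (fun M : ℕ => FF k M / (M : ℝ) ^ 2) atTop (𝓝 (1 / (2 * k))) := by
  have hk' : (0 : ℝ) < k := by exact_mod_cast hk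
  have h0 : Tendsto (fun m : ℕ => (m : ℝ) / k) atTop atTop :=
    tendsto_natCast_atTop_atTop.atTop_div_const hk'
  have h1 : (fun m : ℕ => Chebyshev.theta ((m : ℝ) / k) - m / k) =o[atTop] fun m : ℕ => (m : ℝ) := by
    refine Asymptotics.isLittleO_of_tendsto' ?_ ?_
    · filter_upwards [eventually_gt_atTop 0] with m hm h
      exact absurd h (Nat.cast_ne_zero.2 hm.ne')
    · have h2 := ((P031.pnt_theta.comp h0).sub_const 1).div_const (k : ℝ)
      rw [sub_self, zero_div] at h2
      refine h2.congr' ?_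
      filter_upwards [eventually_gt_atTop 0] with m hm
      have : (m : ℝ) ≠ 0 := Nat.cast_ne_zero.2 hm.ne'
      simp only [Function.comp]
      field_simp
  have h3 : Tendsto (fun M : ℕ => ∑ m ∈ range M, (m : ℝ)) atTop atTop := by
    refine tendsto_atTop_mono' atTop ?_ tendsto_natCast_atTop_atTop
    filter_upwards [eventually_ge_atTop 3] with M hM
    have : (3 : ℝ) ≤ M := by exact_mod_cast hM
    rw [sum_id]
    nlinarith
  have h4 := h1.sum_range (fun m => Nat.cast_nonneg m) h3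
  have h5 : (fun M : ℕ => ∑ m ∈ range M, (m : ℝ)) =O[atTop] fun M : ℕ => (M : ℝ) ^ 2 := by
    refine Asymptotics.IsBigO.of_bound 1 (Eventually.of_forall fun M => ?_)
    have : (0 : ℝ) ≤ M := Nat.cast_nonneg M
    rw [Real.norm_of_nonneg (sum_nonneg fun m _ => Nat.cast_nonneg m),
      Real.norm_of_nonneg (by positivity), sum_id]
    nlinarith
  have h6 := (h4.trans_isBigO h5).tendsto_div_nhds_zero
  have h7 : Tendsto (fun M : ℕ => (1 - (M : ℝ)⁻¹) * (1 / (2 * (k : ℝ)))) atTop
      (𝓝 ((1 - 0) * (1 / (2 * (k : ℝ))))) :=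
    (tendsto_const_nhds.sub tendsto_inv_atTop_nhds_zero_nat).mul_const _
  have h8 := h6.add h7
  rw [zero_add, sub_zero, one_mul] at h8
  refine h8.congr' ?_
  filter_upwards [eventually_gt_atTop 0] with M hM
  have : (M : ℝ) ≠ 0 := Nat.cast_ne_zero.2 hM.ne'
  rw [sum_sub_distrib, ← sum_div, sum_id, FF]
  field_simp
  ring

theorem lim_FF' {k c : ℕ} (hk : 0 < k) (hc : 0 < c) :
    Tendsto (fun N : ℕ => FF k (c * N) / (N : ℝ) ^ 2) atTop (𝓝 (1 / (2 * k) * c ^ 2)) := by
  have h0 : Tendsto (fun N : ℕ => c * N) atTop atTop :=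
    tendsto_atTop_mono (fun N => Nat.le_mul_of_pos_left N hc) tendsto_id
  refine (((lim_FF hk).comp h0).mul_const ((c : ℝ) ^ 2)).congr fun N => ?_
  have : (c : ℝ) ≠ 0 := Nat.cast_ne_zero.2 hc.ne'
  simp only [Function.comp]
  push_cast
  field_simp

theorem lim_small :
    Tendsto (fun N : ℕ => 2 * √(27 * N : ℝ) * (40 * N * Real.log (27 * N)) / (N : ℝ) ^ 2)
      atTop (𝓝 0) := by
  have h0 : Tendsto (fun N : ℕ => (27 * N : ℝ)) atTop atTop :=
    tendsto_natCast_atTop_atTop.const_mul_atTop (by norm_num)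
  have h1 := ((isLittleO_log_rpow_atTop (r := 1 / 2) (by norm_num)).tendsto_div_nhds_zero.comp
    h0).const_mul (2160 : ℝ)
  rw [mul_zero] at h1
  refine h1.congr' ?_
  filter_upwards [eventually_gt_atTop 0] with N hN
  have h2 : (0 : ℝ) < N := by exact_mod_cast hN
  have h3 : 0 < √(27 * N : ℝ) := Real.sqrt_pos.2 (by positivity)
  have h4 : √(27 * N : ℝ) * √(27 * N : ℝ) = 27 * N := Real.mul_self_sqrt (by positivity)
  simp only [Function.comp, ← Real.sqrt_eq_rpow]
  rw [← mul_div_assoc, div_eq_div_iff h3.ne' (by positivity)]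
  linear_combination (-80 * N * Real.log (27 * N)) * h4

theorem term_le {N p : ℕ} (hN : 0 < N) (hp : p.Prime) :
    (ex N p : ℝ) * Real.log p ≤
      ((27 * N - 1 * p : ℕ) : ℝ) * Real.log p + ((16 * N - 1 * p : ℕ) : ℝ) * Real.log p
        + 2 * (((24 * N - 1 * p : ℕ) : ℝ) * Real.log p)
        - 2 * (((14 * N - 1 * p : ℕ) : ℝ) * Real.log p) - ((27 * N - 2 * p : ℕ) : ℝ) * Real.log p
        + 2 * (((12 * N - 1 * p : ℕ) : ℝ) * Real.log p)
        - 2 * (((10 * N - 1 * p : ℕ) : ℝ) * Real.log p)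
        + if p * p ≤ 27 * N then 40 * N * Real.log (27 * N) else 0 := by
  have hl : 0 ≤ Real.log p := Real.log_natCast_nonneg p
  have key : ∀ e : ℕ, e + 2 * (14 * N - 1 * p) + (27 * N - 2 * p) + 2 * (10 * N - 1 * p)
      ≤ (27 * N - 1 * p) + (16 * N - 1 * p) + 2 * (24 * N - 1 * p) + 2 * (12 * N - 1 * p) →
      (e : ℝ) * Real.log p ≤
      ((27 * N - 1 * p : ℕ) : ℝ) * Real.log p + ((16 * N - 1 * p : ℕ) : ℝ) * Real.log p
        + 2 * (((24 * N - 1 * p : ℕ) : ℝ) * Real.log p)
        - 2 * (((14 * N - 1 * p : ℕ) : ℝ) * Real.log p) - ((27 * N - 2 * p : ℕ) : ℝ) * Real.log p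
        + 2 * (((12 * N - 1 * p : ℕ) : ℝ) * Real.log p)
        - 2 * (((10 * N - 1 * p : ℕ) : ℝ) * Real.log p) := by
    intro e he
    have h1 := mul_le_mul_of_nonneg_right ((Nat.cast_le (α := ℝ)).2 he) hl
    simp only [Nat.cast_add, Nat.cast_mul 2 (_ - _), Nat.cast_ofNat] at h1
    linarith
  split_ifs with h
  · have h1 := key 0 (by omega)
    have h2 : p < 10 * N := by
      by_contra h3
      have h4 : 10 * N * (10 * N) ≤ p * p := Nat.mul_le_mul (by omega) (by omega)
      nlinarith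
    have h3 : (Nat.log p (27 * N) : ℝ) * Real.log p ≤ Real.log (27 * N) := by
      rw [← Real.log_pow]
      refine Real.log_le_log (pow_pos (Nat.cast_pos.2 hp.pos) _) ?_
      exact_mod_cast Nat.pow_log_le_self p (by omega : 27 * N ≠ 0)
    have h4 := mul_le_mul_of_nonneg_left h3 (by positivity : (0 : ℝ) ≤ 40 * N)
    rw [ex, if_pos h2]
    push_cast at h1 ⊢
    linarith
  · rw [add_zero]
    apply key
    have h1 : Nat.log p (27 * N) < 2 :=
      Nat.log_lt_of_lt_pow (by omega) (by rw [pow_two]; omega)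
    have h2 : 40 * N * Nat.log p (27 * N) ≤ 40 * N * 1 := Nat.mul_le_mul_left _ (by omega)
    unfold ex
    split_ifs <;> omega

theorem small_le {N : ℕ} (hN : 0 < N) {B : ℝ} (hB : 0 ≤ B) :
    ∑ p ∈ (range (27 * N + 1)).filter Nat.Prime, (if p * p ≤ 27 * N then B else 0)
      ≤ 2 * √(27 * N : ℝ) * B := by
  rw [← sum_filter, sum_const, nsmul_eq_mul]
  refine mul_le_mul_of_nonneg_right ?_ hB
  have h1 : ((range (27 * N + 1)).filter Nat.Prime).filter (fun p => p * p ≤ 27 * N)
      ⊆ range (Nat.sqrt (27 * N) + 1) := fun p hp =>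
    mem_range.2 (Nat.lt_succ_of_le (Nat.le_sqrt.2 (mem_filter.1 hp).2))
  have h2 := card_le_card h1
  rw [card_range] at h2
  have h3 : (Nat.sqrt (27 * N) : ℝ) ≤ √(27 * N : ℝ) := by
    have := Real.nat_sqrt_le_real_sqrt (a := 27 * N)
    push_cast at this
    exact this
  have h4 : (1 : ℝ) ≤ √(27 * N : ℝ) := by
    have : (1 : ℝ) ≤ N := by exact_mod_cast hN
    exact Real.one_le_sqrt.2 (by linarith)
  have h5 := (Nat.cast_le (α := ℝ)).2 h2
  push_cast at h5
  linarith

end Primes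

open Primes

theorem primes : PrimesStmt := by
  intro ε hε
  have h := (((((((lim_FF' (k := 1) (c := 27) one_pos (by norm_num)).add
    (lim_FF' (k := 1) (c := 16) one_pos (by norm_num))).add
    ((lim_FF' (k := 1) (c := 24) one_pos (by norm_num)).const_mul 2)).sub
    ((lim_FF' (k := 1) (c := 14) one_pos (by norm_num)).const_mul 2)).sub
    (lim_FF' (k := 2) (c := 27) two_pos (by norm_num))).add
    ((lim_FF' (k := 1) (c := 12) one_pos (by norm_num)).const_mul 2)).sub
    ((lim_FF' (k := 1) (c := 10) one_pos (by norm_num)).const_mul 2)).add lim_small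
  filter_upwards [h.eventually_le_const (u := 2937 / 4 + ε) (by push_cast; linarith),
    eventually_gt_atTop 0] with N h1 hN
  have h2 : (0 : ℝ) < N := by exact_mod_cast hN
  have h3 : (1 : ℝ) ≤ N := by exact_mod_cast hN
  have h4 := small_le hN (B := 40 * N * Real.log (27 * N))
    (mul_nonneg (by positivity) (Real.log_nonneg (by linarith)))
  refine (sum_le_sum fun p hp => term_le hN (mem_filter.1 hp).2).trans ?_
  simp only [sum_add_distrib, sum_sub_distrib, ← mul_sum]
  rw [sum_eq one_pos le_rfl, sum_eq one_pos (by omega), sum_eq one_pos (by omega),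
    sum_eq one_pos (by omega), sum_eq two_pos le_rfl, sum_eq one_pos (by omega),
    sum_eq one_pos (by omega)]
  simp only [← mul_div_assoc, ← add_div, ← sub_div] at h1
  rw [div_le_iff₀ (by positivity)] at h1
  linarith

end Vale.Agent.P030
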