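import Vale.Agent.P030.And
import Vale.Agent.P030.Cauchy
import Vale.Agent.P030.Cert
import Vale.Agent.P030.Cnd
import Vale.Agent.P030.Const
import Vale.Agent.P030.Elim
import Vale.Agent.P030.Energy
import Vale.Agent.P030.Entry
import Vale.Agent.P030.Fin
import Vale.Agent.P030.Form
import Vale.Agent.P030.Frob1
import Vale.Agent.P030.Frob2
import Vale.Agent.P030.Geo
import Vale.Agent.P030.Lattice
import Vale.Agent.P030.Lens
import Vale.Agent.P030.Lower
import Vale.Agent.P030.Mom
import Vale.Agent.P030.Node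
import Vale.Agent.P030.Nonvan
import Vale.Agent.P030.OddA
import Vale.Agent.P030.OddB
import Vale.Agent.P030.One
import Vale.Agent.P030.Pade
import Vale.Agent.P030.Primes
import Vale.Agent.P030.Ser
import Vale.Agent.P030.Two
import Vale.Agent.P030.Upper

/-!
# P030: Catalan's constant is irrational
-/

namespace Vale.Agent.P030

open Filter

theorem main_of (hU : UpperStmt) (hL : LowerStmt) (hN : NonvanStmt) : Irrational GG := by
  rintro ⟨q, hq⟩
  obtain ⟨p0, hp0⟩ := hN
  have hb : (0 : ℝ) < q.den := by exact_mod_cast q.den_pos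
  have h3 : ∀ᶠ N : ℕ in atTop, 20 * Real.log q.den < (N : ℝ) :=
    tendsto_natCast_atTop_atTop.eventually_gt_atTop _
  obtain ⟨M, hM⟩ := eventually_atTop.1 ((hU (1 / 4) (by norm_num)).and ((hL (1 / 4) (by norm_num)).and h3))
  obtain ⟨p, hp, hpp⟩ := Nat.exists_infinite_primes (M + p0 + q.den + 1)
  obtain ⟨u, l, g⟩ := hM p (by omega)
  have hd : ¬ (p : ℤ) ∣ (q.den : ℤ) := fun h =>
    absurd (Nat.le_of_dvd q.den_pos (Int.natCast_dvd_natCast.1 h)) (by omega)
  have l' := l q.num q.den (hp0 p hpp (by omega) _ _ hd)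
  have e : (Delta p q.num q.den : ℝ) = (q.den : ℝ) ^ (20 * p) *
      (Matrix.of fun e k : Fin (20 * p) => (B0 p e k : ℝ) + GG * (B1 p e k : ℝ)).det := by
    have e1 := Matrix.det_smul (Matrix.of fun e k : Fin (20 * p) => (B0 p e k : ℝ) + GG * (B1 p e k : ℝ))
      (q.den : ℝ)
    rw [Fintype.card_fin] at e1
    rw [Delta, Rat.cast_det, ← e1]
    congr 1
    ext i j
    simp only [Matrix.map_apply, Matrix.add_apply, Matrix.smul_apply, Matrix.of_apply, smul_eq_mul, ← hq,
      Rat.cast_def q]
    push_cast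
    field_simp
  rw [e, abs_mul, abs_of_pos (pow_pos hb _), ← Real.exp_log (pow_pos hb _), Real.log_pow] at l'
  have h4 := l'.trans (mul_le_mul_of_nonneg_left u (Real.exp_pos _).le)
  rw [← Real.exp_add, Real.exp_le_exp] at h4
  have h5 : (0 : ℝ) < p := by exact_mod_cast hpp.pos
  have h6 := mul_lt_mul_of_pos_left g h5
  have h7 := mul_le_mul_of_nonneg_right Real.log_two_lt_d9.le (sq_nonneg (p : ℝ))
  push_cast at h4
  nlinarith

theorem main : Irrational GG :=
  have hF := formS frob1 (frob2 frob1)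
  main_of (upper (entry mom (ser (const mom)) pade) and2 cauchy (elim and1 cauchy (lens geo) geo) geo
      (energy (one cnd) cauchy geo node cert))
    (lower (oddA lattice hF) (oddB lattice frob1 (frob2 frob1) hF) (two lattice pade) primes)
    (nonvan pade frob1 hF finS)

end Vale.Agent.P030
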